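import Mathlib

/-! Definitions for the P262 blueprint (helper13): parameters, invariants of a node. -/

open Finset

namespace Vale.Agent.P262T

/-- `σ = 6 √(log (2 (d+1)²))`, the noise level of one rounding. -/
noncomputable def sigma (d : ℕ) : ℝ := 6 * Real.sqrt (Real.log (2 * ((d : ℝ) + 1) ^ 2))
/-- `E₀ = 12 σ`. -/
noncomputable def E0 (d : ℕ) : ℝ := 12 * sigma d
/-- `s = 4 σ²`. -/
noncomputable def ss (d : ℕ) : ℝ := 4 * sigma d ^ 2
/-- `γ = 10⁸ d² σ²`. -/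
noncomputable def gam (d : ℕ) : ℝ := 10 ^ 8 * (d : ℝ) ^ 2 * sigma d ^ 2

section
variable {d : ℕ} (L : Fin d → ℝ)

/-- `λ_i(l) = L_i / 2^l`. -/
noncomputable def lam (i : Fin d) (l : ℕ) : ℝ := L i / 2 ^ l

/-- `C_l`: the corrected coordinates at level `l`. -/
noncomputable def Cor (l : ℕ) : Finset (Fin d) := by
  classical exact univ.filter (fun i => gam d ≤ lam L i l)

/-- `τ_i(l) = (λ_i(l) + s)^{1/4}`. -/
noncomputable def tau (i : Fin d) (l : ℕ) : ℝ := Real.sqrt (Real.sqrt (lam L i l + ss d))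

/-- `age_i(0) = 0`, `age_i(l+1) = 0` if `i ∈ C_l`, else `age_i(l) + 1`. -/
noncomputable def age (i : Fin d) : ℕ → ℕ
  | 0 => 0
  | l + 1 => by classical exact if i ∈ Cor L l then 0 else age i l + 1

/-- `Γ_i(l) = 2 γ (3/5)^{age}`. -/
noncomputable def Gam (i : Fin d) (l : ℕ) : ℝ := 2 * gam d * (3 / 5 : ℝ) ^ age L i l

/-- `β = Γ / E₀`. -/
noncomputable def bet (i : Fin d) (l : ℕ) : ℝ := Gam L i l / E0 d

end

/-- `θ(β) = 1` if `β ≥ 1`, else `max(β², β / (2 √d))`. -/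
noncomputable def thetaOf (d : ℕ) (β : ℝ) : ℝ :=
  if 1 ≤ β then 1 else max (β ^ 2) (β / (2 * Real.sqrt d))

section
variable {d : ℕ} (L : Fin d → ℝ)

/-- The threshold `θ_i(l)`. -/
noncomputable def th (i : Fin d) (l : ℕ) : ℝ := thetaOf d (bet L i l)

variable {ι : Type} (α : ι → Fin d → ℝ)

/-- `small_i(l)`: the elements with `α_i² ≤ θ_i(l)`. -/
noncomputable def smallSet (i : Fin d) (l : ℕ) (B : Finset ι) : Finset ι := by
  classical exact B.filter (fun v => α v i ^ 2 ≤ th L i l)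

/-- The big elements. -/
noncomputable def bigSet (i : Fin d) (l : ℕ) (B : Finset ι) : Finset ι := by
  classical exact B.filter (fun v => ¬ α v i ^ 2 ≤ th L i l)

/-- `G_i = ∑_{big} α_i`. -/
noncomputable def GG (i : Fin d) (l : ℕ) (B : Finset ι) : ℝ := ∑ v ∈ bigSet L α i l B, α v i

/-- `T_i = ∑_{big} |α_i|`. -/
noncomputable def TT (i : Fin d) (l : ℕ) (B : Finset ι) : ℝ := ∑ v ∈ bigSet L α i l B, |α v i|

/-- `M_B(i,j) = ∑_B α_i α_j`. -/
noncomputable def MM (B : Finset ι) (i j : Fin d) : ℝ := ∑ v ∈ B, α v i * α v j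

end

/-- The Lyapunov functions (to be chosen in `Lyap`), packaged: `W : ℕ → ℝ` (age), `Om : ℕ → ℝ` (level),
and the target bound `b`. -/
structure NodeOK {d : ℕ} (L : Fin d → ℝ) {ι : Type} (α : ι → Fin d → ℝ)
    (W Om : ℕ → ℝ) (b : ℝ) (l : ℕ) (B : Finset ι) (p q : Fin d → ℝ) : Prop where
  /-- `q - p = ∑_B v` -/
  hsum : ∀ i, q i - p i = ∑ v ∈ B, α v i
  /-- (E) -/
  hE : ∀ i j, |MM α B i j - (if i = j then lam L i l else 0)| ≤ 5 * (tau L i l * tau L j l)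
  /-- (S) -/
  hS : ∀ i, i ∉ Cor L l → ∑ v ∈ smallSet L α i l B, α v i ^ 2 ≤ Gam L i l
  /-- (P), corrected coordinates -/
  hPc : ∀ i ∈ Cor L l, |p i| ≤ sigma d ∧ |q i| ≤ sigma d
  /-- (P), frozen coordinates -/
  hPf : ∀ i, i ∉ Cor L l → max |p i| |q i - GG L α i l B| + TT L α i l B
    ≤ b - W (age L i l) - Om l

end Vale.Agent.P262T
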