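import Vale.Agent.P262.FBMain

/-!
# Komlos rounding with fractional start, from the functional Banaszczyk theorem `fb_main`.

For columns `l v` with `∑ e, (l v e)^2 ≤ 1` and a fractional `y v ∈ [0,1]`, some `Y v ∈ {0,1}` has
`|∑ v, (Y v - y v) * l v e| ≤ (109/40) * √(log (2 |R|))` for every row `e`, with no dependence
on the number of columns.
-/

open MeasureTheory ProbabilityTheory Finset

namespace Vale.Agent.P262T

open Vale.Agent.P262.FB

variable {R : Type} [Fintype R]

/-- Law of a coordinate under the standard Gaussian. -/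
lemma map_coord [DecidableEq R] (e : R) :
    (stdGaussian (EuclideanSpace ℝ R)).map (fun z : EuclideanSpace ℝ R => z e)
      = gaussianReal 0 1 := by
  rw [← map_pi_eq_stdGaussian]
  rw [Measure.map_map (by fun_prop) (by fun_prop)]
  exact (measurePreserving_eval (fun _ : R => gaussianReal 0 1) e).map_eq

omit [Fintype R] in
lemma meas_coord (e : R) : Measurable (fun z : EuclideanSpace ℝ R => z e) := by
  fun_prop

lemma exp_coord_integrable [DecidableEq R] (a b : ℝ) (e : R) :
    Integrable (fun z : EuclideanSpace ℝ R => Real.exp (a + b * z e))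
      (stdGaussian (EuclideanSpace ℝ R)) := by
  have h : Integrable (fun x : ℝ => Real.exp (a + b * x))
      ((stdGaussian (EuclideanSpace ℝ R)).map (fun z : EuclideanSpace ℝ R => z e)) := by
    rw [map_coord]
    have := (integrable_exp_mul_gaussianReal (μ := 0) (v := 1) b).const_mul (Real.exp a)
    refine this.congr (Filter.Eventually.of_forall fun x => ?_)
    simp only
    rw [← Real.exp_add]
  exact (integrable_map_measure (by fun_prop) (meas_coord e).aemeasurable).mp h

lemma exp_coord_integral [DecidableEq R] (a b : ℝ) (e : R) :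
    ∫ z : EuclideanSpace ℝ R, Real.exp (a + b * z e) ∂(stdGaussian (EuclideanSpace ℝ R))
      = Real.exp (a + b ^ 2 / 2) := by
  have h1 : ∫ z : EuclideanSpace ℝ R, Real.exp (a + b * z e) ∂(stdGaussian (EuclideanSpace ℝ R))
      = ∫ x : ℝ, Real.exp (a + b * x)
          ∂((stdGaussian (EuclideanSpace ℝ R)).map (fun z : EuclideanSpace ℝ R => z e)) := by
    rw [integral_map (meas_coord e).aemeasurable (by fun_prop)]
  rw [h1, map_coord]
  have h2 : ∀ x : ℝ, Real.exp (a + b * x) = Real.exp a * Real.exp (b * x) := fun x =>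
    Real.exp_add _ _
  simp_rw [h2]
  rw [integral_const_mul]
  have h3 := congrFun (mgf_id_gaussianReal (μ := 0) (v := 1)) b
  simp only [mgf, id] at h3
  rw [h3, ← Real.exp_add]
  congr 1
  simp

/-- `exp` of an affine function of a coordinate is admissible. -/
lemma exp_coord_adm [DecidableEq R] (a b : ℝ) (e : R) :
    Adm (fun z : EuclideanSpace ℝ R => Real.exp (a + b * z e)) where
  convex := by
    refine ⟨convex_univ, fun x _ y _ p q hp hq hpq => ?_⟩
    have h := convexOn_exp.2 (Set.mem_univ (a + b * x e)) (Set.mem_univ (a + b * y e)) hp hq hpq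
    simp only [smul_eq_mul] at h ⊢
    refine le_trans (le_of_eq ?_) h
    congr 1
    simp only [PiLp.add_apply, PiLp.smul_apply, smul_eq_mul]
    have : a = (p + q) * a := by rw [hpq, one_mul]
    nlinarith
  nonneg := fun _ => (Real.exp_pos _).le
  integ := by
    intro v
    have := exp_coord_integrable (R := R) (a + b * v e) b e
    refine this.congr (Filter.Eventually.of_forall fun x => ?_)
    simp only [PiLp.add_apply]
    congr 1
    ring

lemma Adm_sum {E : Type*} [NormedAddCommGroup E] [InnerProductSpace ℝ E] [FiniteDimensional ℝ E]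
    [MeasurableSpace E] [BorelSpace E] {J : Type*} (s : Finset J) (g : J → E → ℝ)
    (hg : ∀ j ∈ s, Adm (g j)) : Adm (fun x => ∑ j ∈ s, g j x) := by
  classical
  induction s using Finset.induction_on with
  | empty => simpa using Adm.zero
  | insert a s ha ih =>
    simp only [Finset.sum_insert ha]
    exact (hg a (Finset.mem_insert_self _ _)).add
      (ih fun j hj => hg j (Finset.mem_insert_of_mem hj))

/-- The exponential potential `∑_e (exp (t x_e) + exp (-t x_e))`. -/
noncomputable def Phi (t : ℝ) (x : R → ℝ) : ℝ :=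
  ∑ e, (Real.exp (t * x e) + Real.exp (-t * x e))

lemma Phi_nonneg (t : ℝ) (x : R → ℝ) : 0 ≤ Phi t x :=
  Finset.sum_nonneg fun _ _ => add_nonneg (Real.exp_pos _).le (Real.exp_pos _).le

lemma Phi_zero (t : ℝ) : Phi t (fun _ : R => (0 : ℝ)) = 2 * Fintype.card R := by
  simp [Phi, Finset.card_univ]
  ring

lemma exp_abs_le_Phi (t : ℝ) (x : R → ℝ) (e : R) :
    Real.exp (t * |x e|) ≤ Phi t x := by
  have h1 : Real.exp (t * |x e|) ≤ Real.exp (t * x e) + Real.exp (-t * x e) := by
    rcases abs_cases (x e) with ⟨h, _⟩ | ⟨h, _⟩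
    · rw [h]
      linarith [Real.exp_pos (-t * x e)]
    · rw [h]
      have : t * -x e = -t * x e := by ring
      rw [this]
      linarith [Real.exp_pos (t * x e)]
  refine h1.trans ?_
  exact Finset.single_le_sum
    (f := fun e => Real.exp (t * x e) + Real.exp (-t * x e))
    (fun i _ => add_nonneg (Real.exp_pos _).le (Real.exp_pos _).le) (Finset.mem_univ e)

/-- The test function for a digit step: the potential at `x + (h/c) z`. -/
noncomputable def G (t s : ℝ) (x : R → ℝ) (z : EuclideanSpace ℝ R) : ℝ :=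
  ∑ e, (Real.exp (t * x e + (t * s) * z e) + Real.exp (-t * x e + (-t * s) * z e))

lemma G_adm [DecidableEq R] (t s : ℝ) (x : R → ℝ) : Adm (G t s x) := by
  unfold G
  refine Adm_sum _ _ (fun e _ => ?_)
  exact (exp_coord_adm _ _ e).add (exp_coord_adm _ _ e)

lemma G_integral [DecidableEq R] (t s : ℝ) (x : R → ℝ) :
    ∫ z, G t s x z ∂(stdGaussian (EuclideanSpace ℝ R))
      = Real.exp ((t * s) ^ 2 / 2) * Phi t x := by
  unfold G Phi
  rw [integral_finsetSum]
  · rw [Finset.mul_sum]
    refine Finset.sum_congr rfl fun e _ => ?_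
    rw [integral_add (exp_coord_integrable _ _ e) (exp_coord_integrable _ _ e),
      exp_coord_integral, exp_coord_integral, mul_add, Real.exp_add, Real.exp_add]
    have : (-t * s) ^ 2 = (t * s) ^ 2 := by ring
    rw [this]
    ring
  · intro e _
    exact (exp_coord_integrable _ _ e).add (exp_coord_integrable _ _ e)

/-- A single convex test function and a family indexed by a fintype: one signing beats the
Gaussian average. -/
lemma fb_one [DecidableEq R] {ι : Type} [Fintype ι] (u : ι → EuclideanSpace ℝ R)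
    (hu : ∀ i, ‖u i‖ ≤ 3 / 10) (F : EuclideanSpace ℝ R → ℝ) (hF : Adm F) :
    ∃ ε : ι → ℝ, (∀ i, ε i = 1 ∨ ε i = -1) ∧
      F (∑ i, ε i • u i) ≤ ∫ z, F z ∂(stdGaussian (EuclideanSpace ℝ R)) := by
  classical
  let n := Fintype.card ι
  let eqv : ι ≃ Fin n := Fintype.equivFin ι
  let u' : ℕ → EuclideanSpace ℝ R := fun i => if h : i < n then u (eqv.symm ⟨i, h⟩) else 0
  let g : ℕ → EuclideanSpace ℝ R → ℝ := fun t => if t = n then F else fun _ => 0
  have hu' : ∀ i, ‖u' i‖ ≤ 3 / 10 := by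
    intro i
    simp only [u']
    split_ifs with h
    · exact hu _
    · simp only [norm_zero]; norm_num
  have hg : ∀ i, Adm (g i) := by
    intro i
    simp only [g]
    split_ifs
    · exact hF
    · exact Adm.zero
  obtain ⟨ε, hε, hsum⟩ := fb_main u' g hu' hg (n + 1)
  refine ⟨fun i => ε (eqv i), fun i => hε _, ?_⟩
  have hl : ∑ t ∈ range (n + 1), g t (∑ i ∈ range (t + 1), ε i • u' i)
      = F (∑ i ∈ range (n + 1), ε i • u' i) := by
    rw [Finset.sum_eq_single n]
    · simp [g]
    · intro b hb hbn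
      simp [g, hbn]
    · intro h
      simp at h
  have hr : ∑ t ∈ range (n + 1), ∫ x, g t x ∂(stdGaussian (EuclideanSpace ℝ R))
      = ∫ x, F x ∂(stdGaussian (EuclideanSpace ℝ R)) := by
    rw [Finset.sum_eq_single n]
    · simp [g]
    · intro b hb hbn
      simp [g, hbn]
    · intro h
      simp at h
  rw [hl, hr] at hsum
  have hs : ∑ i ∈ range (n + 1), ε i • u' i = ∑ i, ε (eqv i) • u i := by
    rw [Finset.sum_range_succ]
    have h0 : u' n = 0 := by simp [u']
    rw [h0, smul_zero, add_zero, Finset.sum_range]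
    rw [← Equiv.sum_comp eqv]
    refine Finset.sum_congr rfl fun i _ => ?_
    simp only [u']
    rw [dif_pos (eqv i).2]
    simp
  rwa [hs] at hsum

/-- Squared norm of a column. -/
lemma norm_toLp_le {c : ℝ} (hc : 0 ≤ c) (w : R → ℝ) (hw : ∑ e, w e ^ 2 ≤ 1) :
    ‖(WithLp.toLp 2 (fun e => c * w e) : EuclideanSpace ℝ R)‖ ≤ c := by
  have h : ‖(WithLp.toLp 2 (fun e => c * w e) : EuclideanSpace ℝ R)‖ ^ 2 ≤ c ^ 2 := by
    rw [EuclideanSpace.real_norm_sq_eq]
    simp only [mul_pow]
    rw [← Finset.mul_sum]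
    nlinarith [sq_nonneg c]
  exact abs_le_of_sq_le_sq' h hc |>.2

/-- One digit step of the rounding: signs on the set `S` of columns, with potential gain. -/
lemma digit_step [DecidableEq R] {ι : Type} [Fintype ι] (l : ι → R → ℝ)
    (hl : ∀ v, ∑ e, l v e ^ 2 ≤ 1) (odd : ι → Prop) [DecidablePred odd] (t h : ℝ) (x : R → ℝ) :
    ∃ ε : ι → ℝ, (∀ i, ε i = 1 ∨ ε i = -1) ∧
      Phi t (fun e => x e + h * ∑ v, (if odd v then ε v else 0) * l v e)
        ≤ Real.exp ((t * (h * (10 / 3))) ^ 2 / 2) * Phi t x := by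
  let u : ι → EuclideanSpace ℝ R := fun v =>
    WithLp.toLp 2 (fun e => (3 / 10 : ℝ) * (if odd v then l v e else 0))
  have hu : ∀ v, ‖u v‖ ≤ 3 / 10 := by
    intro v
    refine norm_toLp_le (by norm_num) _ ?_
    by_cases hv : odd v
    · simpa [hv] using hl v
    · simp [hv]
  obtain ⟨ε, hε, hF⟩ := fb_one u hu (G t (h * (10 / 3)) x) (G_adm _ _ _)
  refine ⟨ε, hε, ?_⟩
  rw [G_integral] at hF
  refine le_trans (le_of_eq ?_) hF
  unfold Phi G
  refine Finset.sum_congr rfl fun e _ => ?_
  have hz : (∑ i, ε i • u i) e = (3 / 10 : ℝ) * ∑ v, (if odd v then ε v else 0) * l v e := by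
    have : (∑ i, ε i • u i) e = ∑ i, ε i * (3 / 10 * (if odd i then l i e else 0)) := by
      simp [u, Finset.sum_apply]
    rw [this, Finset.mul_sum]
    refine Finset.sum_congr rfl fun v _ => ?_
    by_cases hv : odd v
    · simp only [hv, if_true]; ring
    · simp [hv]
  rw [hz]
  congr 2
  · ring
  · ring

/-- Exponent bookkeeping of the digit recursion. -/
noncomputable def Ax (n : ℕ) : ℝ := (1 - (1 / 4 : ℝ) ^ n) / 3

lemma Ax_zero : Ax 0 = 0 := by simp [Ax]

lemma Ax_succ (n : ℕ) : Ax (n + 1) = Ax n + ((1 / 2 : ℝ) ^ (n + 1)) ^ 2 := by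
  unfold Ax
  rw [pow_succ (1 / 4 : ℝ) n, ← pow_mul, show (n + 1) * 2 = 2 * n + 2 by ring, pow_add, pow_mul]
  norm_num
  ring

lemma Ax_le (n : ℕ) : Ax n ≤ 1 / 3 := by
  unfold Ax
  have : 0 ≤ (1 / 4 : ℝ) ^ n := by positivity
  linarith

/-- The dyadic digit recursion. -/
theorem dyadic_round [DecidableEq R] {ι : Type} [Fintype ι] (l : ι → R → ℝ)
    (hl : ∀ v, ∑ e, l v e ^ 2 ≤ 1) (t : ℝ) (n : ℕ) :
    ∀ (m : ι → ℕ), (∀ v, m v ≤ 2 ^ n) → ∀ x : R → ℝ,
      ∃ Y : ι → ℝ, (∀ v, Y v = 0 ∨ Y v = 1) ∧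
        Phi t (fun e => x e + ∑ v, (Y v - m v / 2 ^ n) * l v e)
          ≤ Real.exp (t ^ 2 * (100 / 9) / 2 * Ax n) * Phi t x := by
  classical
  induction n with
  | zero =>
    intro m hm x
    refine ⟨fun v => m v, fun v => ?_, ?_⟩
    · have := hm v
      simp only [pow_zero] at this
      have h2 : m v = 0 ∨ m v = 1 := by omega
      rcases h2 with h2 | h2
      · left; simp [h2]
      · right; simp [h2]
    · simp [Ax_zero]
  | succ n ih =>
    intro m hm x
    set h : ℝ := (1 / 2 : ℝ) ^ (n + 1) with hh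
    obtain ⟨ε, hε, hstep⟩ := digit_step l hl (fun v => m v % 2 = 1) t h x
    -- new numerators
    have hm' : ∀ v, ∃ k : ℕ, k ≤ 2 ^ n ∧ (k : ℝ) / 2 ^ n
        = (m v : ℝ) / 2 ^ (n + 1) + h * (if m v % 2 = 1 then ε v else 0) := by
      intro v
      have hmv := hm v
      have hp : (2 : ℝ) ^ (n + 1) = 2 * 2 ^ n := by rw [pow_succ]; ring
      have hh2 : h = 1 / (2 * 2 ^ n) := by
        rw [hh, ← hp, one_div_pow, one_div]
      have hpos : (0 : ℝ) < 2 ^ n := by positivity
      by_cases hodd : m v % 2 = 1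
      · rw [if_pos hodd]
        rcases hε v with he | he
        · refine ⟨(m v + 1) / 2, ?_, ?_⟩
          · have : (2:ℕ) ^ (n + 1) = 2 * 2 ^ n := by rw [pow_succ]; ring
            omega
          · have hk : (((m v + 1) / 2 : ℕ) : ℝ) * 2 = (m v : ℝ) + 1 := by
              have : (m v + 1) / 2 * 2 = m v + 1 := by omega
              exact_mod_cast this
            rw [he, hp, hh2]
            field_simp
            linarith
        · refine ⟨(m v - 1) / 2, ?_, ?_⟩
          · have : (2:ℕ) ^ (n + 1) = 2 * 2 ^ n := by rw [pow_succ]; ring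
            omega
          · have hk : (((m v - 1) / 2 : ℕ) : ℝ) * 2 = (m v : ℝ) - 1 := by
              have h1 : (m v - 1) / 2 * 2 + 1 = m v := by omega
              have h2 : (((m v - 1) / 2 * 2 + 1 : ℕ) : ℝ) = (m v : ℝ) := by rw [h1]
              push_cast at h2
              linarith
            rw [he, hp, hh2]
            field_simp
            linarith
      · rw [if_neg hodd]
        refine ⟨m v / 2, ?_, ?_⟩
        · have : (2:ℕ) ^ (n + 1) = 2 * 2 ^ n := by rw [pow_succ]; ring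
          omega
        · have hk : ((m v / 2 : ℕ) : ℝ) * 2 = (m v : ℝ) := by
            have : m v / 2 * 2 = m v := by omega
            exact_mod_cast this
          rw [hp]
          field_simp
          linarith
    choose m' hm'1 hm'2 using hm'
    obtain ⟨Y, hY, hPhi⟩ := ih m' hm'1
      (fun e => x e + h * ∑ v, (if m v % 2 = 1 then ε v else 0) * l v e)
    refine ⟨Y, hY, ?_⟩
    have hsame : (fun e => x e + ∑ v, (Y v - (m v : ℝ) / 2 ^ (n + 1)) * l v e)
        = (fun e => (x e + h * ∑ v, (if m v % 2 = 1 then ε v else 0) * l v e)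
            + ∑ v, (Y v - (m' v : ℝ) / 2 ^ n) * l v e) := by
      funext e
      rw [Finset.mul_sum, add_assoc, ← Finset.sum_add_distrib]
      congr 1
      refine Finset.sum_congr rfl fun v _ => ?_
      rw [hm'2 v]
      ring
    rw [hsame]
    refine hPhi.trans ?_
    have hexp : t ^ 2 * (100 / 9) / 2 * Ax (n + 1)
        = t ^ 2 * (100 / 9) / 2 * Ax n + (t * (h * (10 / 3))) ^ 2 / 2 := by
      rw [Ax_succ]
      ring
    rw [hexp, Real.exp_add, mul_assoc]
    exact mul_le_mul_of_nonneg_left hstep (Real.exp_pos _).le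

/-- **Komlos rounding with fractional start.** -/
theorem komlos_round [DecidableEq R] {ι : Type} [Fintype ι] (l : ι → R → ℝ)
    (hl : ∀ v, ∑ e, l v e ^ 2 ≤ 1) (y : ι → ℝ) (hy : ∀ v, 0 ≤ y v ∧ y v ≤ 1) :
    ∃ Y : ι → ℝ, (∀ v, Y v = 0 ∨ Y v = 1) ∧
      ∀ e, |∑ v, (Y v - y v) * l v e| ≤ (109 / 40) * √(Real.log (2 * Fintype.card R)) := by
  classical
  by_cases hR : IsEmpty R
  · exact ⟨fun _ => 0, fun _ => Or.inl rfl, fun e => (hR.false e).elim⟩
  rw [not_isEmpty_iff] at hR
  set c : ℝ := (Fintype.card R : ℝ) with hc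
  have hc1 : (1 : ℝ) ≤ c := by
    rw [hc]
    exact_mod_cast Fintype.card_pos
  set L : ℝ := Real.log (2 * c) with hL
  have hL2 : Real.log 2 ≤ L := Real.log_le_log (by norm_num) (by linarith)
  have hL0 : 0.69 < L := by
    have := Real.log_two_gt_d9
    linarith
  set s : ℝ := √L with hs
  have hs2 : s ^ 2 = L := Real.sq_sqrt (by linarith)
  have hs0 : 0.8 ≤ s := by
    apply Real.le_sqrt_of_sq_le
    norm_num
    linarith
  set r6 : ℝ := √6 with hr6
  have hr62 : r6 ^ 2 = 6 := Real.sq_sqrt (by norm_num)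
  have hr6a : (2.449 : ℝ) ≤ r6 := by
    apply Real.le_sqrt_of_sq_le
    norm_num
  set t : ℝ := (3 / 10) * r6 * s with ht
  have ht0 : 0 < t := by
    rw [ht]
    positivity
  -- number of digits
  set N : ℕ := Fintype.card ι with hN
  obtain ⟨n, hn⟩ : ∃ n : ℕ, N * 1000 ≤ n := ⟨_, le_rfl⟩
  have h2n : ((N : ℝ)) * 1000 ≤ 2 ^ n := by
    have h1 : n < 2 ^ n := Nat.lt_two_pow_self
    have h3 : N * 1000 ≤ 2 ^ n := by omega
    exact_mod_cast h3
  have hpow : (0 : ℝ) < 2 ^ n := by positivity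
  let m : ι → ℕ := fun v => ⌊y v * 2 ^ n⌋₊
  have hm : ∀ v, m v ≤ 2 ^ n := by
    intro v
    have h1 : (m v : ℝ) ≤ y v * 2 ^ n :=
      Nat.floor_le (mul_nonneg (hy v).1 hpow.le)
    have h2 : (m v : ℝ) ≤ 2 ^ n := by nlinarith [(hy v).2]
    exact_mod_cast h2
  have hmerr : ∀ v, |y v - (m v : ℝ) / 2 ^ n| ≤ 1 / 2 ^ n := by
    intro v
    have h1 : (m v : ℝ) ≤ y v * 2 ^ n :=
      Nat.floor_le (mul_nonneg (hy v).1 hpow.le)
    have h2 : y v * 2 ^ n < (m v : ℝ) + 1 := Nat.lt_floor_add_one _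
    rw [abs_le]
    constructor
    · rw [neg_le_sub_iff_le_add, div_le_iff₀ hpow]
      have : (y v + 1 / 2 ^ n) * 2 ^ n = y v * 2 ^ n + 1 := by
        field_simp
      rw [this]
      linarith
    · rw [sub_le_iff_le_add, ← sub_le_iff_le_add', le_div_iff₀ hpow]
      have : (y v - 1 / 2 ^ n) * 2 ^ n = y v * 2 ^ n - 1 := by
        field_simp
      rw [this]
      linarith
  obtain ⟨Y, hY, hPhi⟩ := dyadic_round l hl t n m hm (fun _ => 0)
  refine ⟨Y, hY, fun e => ?_⟩
  have hlabs : ∀ v, |l v e| ≤ 1 := by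
    intro v
    have h1 : l v e ^ 2 ≤ ∑ e, l v e ^ 2 :=
      Finset.single_le_sum (f := fun e => l v e ^ 2) (fun _ _ => sq_nonneg _) (Finset.mem_univ e)
    exact abs_le_one_iff_mul_self_le_one.mpr (by nlinarith [hl v])
  simp only [zero_add] at hPhi
  rw [Phi_zero] at hPhi
  set z : R → ℝ := fun e => ∑ v, (Y v - (m v : ℝ) / 2 ^ n) * l v e with hz
  have h1 : Real.exp (t * |z e|) ≤ Phi t z := exp_abs_le_Phi t z e
  have h3 : t ^ 2 * (100 / 9) / 2 * Ax n ≤ L := by
    have ht2 : t ^ 2 = 9 / 100 * 6 * L := by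
      rw [ht, mul_pow, mul_pow, hr62, hs2]
      ring
    rw [ht2]
    have := Ax_le n
    nlinarith
  have h4 : Real.exp (t * |z e|) ≤ Real.exp (2 * L) := by
    calc Real.exp (t * |z e|) ≤ Phi t z := h1
      _ ≤ Real.exp (t ^ 2 * (100 / 9) / 2 * Ax n) * (2 * c) := hPhi
      _ ≤ Real.exp L * (2 * c) :=
          mul_le_mul_of_nonneg_right (Real.exp_le_exp.mpr h3) (by linarith)
      _ = Real.exp (2 * L) := by
          rw [two_mul L, Real.exp_add, hL, Real.exp_log (by linarith)]
  have h5 : t * |z e| ≤ 2 * L := Real.exp_le_exp.mp h4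
  have h6 : |z e| ≤ (2723 / 1000) * s := by
    by_contra hcon
    push Not at hcon
    have h7 : t * ((2723 / 1000) * s) < t * |z e| := mul_lt_mul_of_pos_left hcon ht0
    have h8 : t * ((2723 / 1000) * s) = (3 / 10) * r6 * (2723 / 1000) * s ^ 2 := by
      rw [ht]; ring
    rw [h8, hs2] at h7
    have h9 : (3 / 10) * r6 * (2723 / 1000) ≥ 2 := by nlinarith
    nlinarith
  have h10 : ∑ v, (Y v - y v) * l v e
      = z e + ∑ v, ((m v : ℝ) / 2 ^ n - y v) * l v e := by
    rw [hz]
    simp only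
    rw [← Finset.sum_add_distrib]
    refine Finset.sum_congr rfl fun v _ => ?_
    ring
  have h11 : |∑ v, ((m v : ℝ) / 2 ^ n - y v) * l v e| ≤ 1 / 1000 := by
    calc |∑ v, ((m v : ℝ) / 2 ^ n - y v) * l v e|
        ≤ ∑ v, |((m v : ℝ) / 2 ^ n - y v) * l v e| := Finset.abs_sum_le_sum_abs _ _
      _ ≤ ∑ _v : ι, (1 / 2 ^ n : ℝ) := by
          refine Finset.sum_le_sum fun v _ => ?_
          rw [abs_mul, abs_sub_comm]
          have := mul_le_mul (hmerr v) (hlabs v) (abs_nonneg _) (by positivity)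
          simpa using this
      _ = (N : ℝ) / 2 ^ n := by
          rw [Finset.sum_const, nsmul_eq_mul, Finset.card_univ, ← hN]
          ring
      _ ≤ 1 / 1000 := by
          rw [div_le_div_iff₀ hpow (by norm_num)]
          linarith
  rw [h10]
  calc |z e + ∑ v, ((m v : ℝ) / 2 ^ n - y v) * l v e|
      ≤ |z e| + |∑ v, ((m v : ℝ) / 2 ^ n - y v) * l v e| := abs_add_le _ _
    _ ≤ (2723 / 1000) * s + 1 / 1000 := add_le_add h6 h11
    _ ≤ (109 / 40) * s := by nlinarith

/-- **Komlos rounding, subset form.** A subset `S` of the finite set `B` realises the fractional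
combination `∑_{v ∈ B} y v • l v` up to `(109/40) √(log (2 |R|))` in every row. -/
theorem komlos_round_finset [DecidableEq R] {ι : Type} [DecidableEq ι] (B : Finset ι)
    (l : ι → R → ℝ) (hl : ∀ v ∈ B, ∑ e, l v e ^ 2 ≤ 1) (y : ι → ℝ)
    (hy : ∀ v ∈ B, 0 ≤ y v ∧ y v ≤ 1) :
    ∃ S : Finset ι, S ⊆ B ∧ ∀ e,
      |∑ v ∈ S, l v e - ∑ v ∈ B, y v * l v e|
        ≤ (109 / 40) * √(Real.log (2 * Fintype.card R)) := by
  classical
  obtain ⟨Y, hY, hb⟩ := komlos_round (ι := {v // v ∈ B}) (fun v => l v.1)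
    (fun v => hl v.1 v.2) (fun v => y v.1) (fun v => hy v.1 v.2)
  refine ⟨(B.attach.filter (fun v => Y v = 1)).image Subtype.val, ?_, fun e => ?_⟩
  · intro v hv
    rw [Finset.mem_image] at hv
    obtain ⟨w, _, rfl⟩ := hv
    exact w.2
  · refine le_trans (le_of_eq ?_) (hb e)
    congr 1
    rw [Finset.sum_image (fun a _ b _ h => Subtype.ext h)]
    rw [Finset.sum_filter]
    have h2 : ∑ v ∈ B, y v * l v e = ∑ v : {v // v ∈ B}, y v.1 * l v.1 e := by
      rw [← Finset.sum_coe_sort B]
    rw [h2, Finset.univ_eq_attach, ← Finset.sum_sub_distrib]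
    refine Finset.sum_congr rfl fun v _ => ?_
    rcases hY v with h | h
    · simp [h]
    · simp [h]
      ring

end Vale.Agent.P262T
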