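import Mathlib

/-! Linear algebra for the node step of the P262 blueprint: solving `A a = x` on the corrected
coordinates, with the bounds on `a`. -/

open Finset

namespace Vale.Agent.P262T

variable {d : ℕ}

/-- Quadratic form of `M` restricted to `C`. -/
noncomputable def qf (C : Finset (Fin d)) (M : Fin d → Fin d → ℝ) (a : Fin d → ℝ) : ℝ :=
  ∑ i ∈ C, ∑ k ∈ C, a i * M i k * a k

/-- From the entrywise estimate `(E)`: the lower bound for the quadratic form. -/
lemma qf_lower (C : Finset (Fin d)) (M : Fin d → Fin d → ℝ) (lam τ : Fin d → ℝ)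
    (hE : ∀ i j, |M i j - (if i = j then lam i else 0)| ≤ 5 * (τ i * τ j))
    (hτ : ∀ i ∈ C, 0 ≤ τ i) (hlam : ∀ i ∈ C, 0 < lam i)
    (hsmall : 5 * ∑ i ∈ C, τ i ^ 2 / lam i ≤ 1 / 2) (a : Fin d → ℝ) :
    (1 / 2) * ∑ i ∈ C, lam i * a i ^ 2 ≤ qf C M a := by
  classical
  set W := ∑ i ∈ C, lam i * a i ^ 2 with hW
  have hW0 : 0 ≤ W := Finset.sum_nonneg fun i hi => mul_nonneg (hlam i hi).le (sq_nonneg _)
  -- decomposition
  have hdec : qf C M a = W + ∑ i ∈ C, ∑ k ∈ C, a i * a k * (M i k - (if i = k then lam i else 0)) := by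
    have h1 : ∀ i ∈ C, ∑ k ∈ C, a i * M i k * a k
        = lam i * a i ^ 2 + ∑ k ∈ C, a i * a k * (M i k - (if i = k then lam i else 0)) := by
      intro i hi
      have h2 : ∑ k ∈ C, a i * a k * (if i = k then lam i else 0) = lam i * a i ^ 2 := by
        rw [Finset.sum_eq_single i]
        · simp; ring
        · intro k _ hk
          simp [Ne.symm hk]
        · intro h; exact absurd hi h
      have h3 : ∑ k ∈ C, a i * a k * (M i k - (if i = k then lam i else 0))
          = ∑ k ∈ C, a i * M i k * a k - ∑ k ∈ C, a i * a k * (if i = k then lam i else 0) := by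
        rw [← Finset.sum_sub_distrib]
        exact Finset.sum_congr rfl fun k _ => by ring
      rw [h3, h2]; ring
    unfold qf
    rw [Finset.sum_congr rfl h1, Finset.sum_add_distrib]
  -- Cauchy-Schwarz
  have hcs : (∑ i ∈ C, |a i| * τ i) ^ 2 ≤ W * ∑ i ∈ C, τ i ^ 2 / lam i := by
    have := Finset.sum_mul_sq_le_sq_mul_sq C (fun i => Real.sqrt (lam i) * a i)
      (fun i => τ i / Real.sqrt (lam i))
    have h1 : ∀ i ∈ C, (Real.sqrt (lam i) * a i) ^ 2 = lam i * a i ^ 2 := by
      intro i hi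
      rw [mul_pow, Real.sq_sqrt (hlam i hi).le]
    have h2 : ∀ i ∈ C, (τ i / Real.sqrt (lam i)) ^ 2 = τ i ^ 2 / lam i := by
      intro i hi
      rw [div_pow, Real.sq_sqrt (hlam i hi).le]
    rw [Finset.sum_congr rfl h1, Finset.sum_congr rfl h2] at this
    have h3 : (∑ i ∈ C, |a i| * τ i) ^ 2
        = (∑ i ∈ C, |Real.sqrt (lam i) * a i * (τ i / Real.sqrt (lam i))|) ^ 2 := by
      congr 1
      refine Finset.sum_congr rfl fun i hi => ?_
      have hs : 0 < Real.sqrt (lam i) := Real.sqrt_pos.mpr (hlam i hi)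
      have : Real.sqrt (lam i) * a i * (τ i / Real.sqrt (lam i)) = a i * τ i := by
        field_simp
      rw [this, abs_mul, abs_of_nonneg (hτ i hi)]
    rw [h3]
    have h4 := Finset.sum_mul_sq_le_sq_mul_sq C (fun i => |Real.sqrt (lam i) * a i|)
      (fun i => |τ i / Real.sqrt (lam i)|)
    simp only [sq_abs, ← abs_mul] at h4
    rw [Finset.sum_congr rfl h1, Finset.sum_congr rfl h2] at h4
    exact h4
  -- bound the error term
  have herr : |∑ i ∈ C, ∑ k ∈ C, a i * a k * (M i k - (if i = k then lam i else 0))|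
      ≤ 5 * (∑ i ∈ C, |a i| * τ i) ^ 2 := by
    calc |∑ i ∈ C, ∑ k ∈ C, a i * a k * (M i k - (if i = k then lam i else 0))|
        ≤ ∑ i ∈ C, ∑ k ∈ C, |a i * a k * (M i k - (if i = k then lam i else 0))| := by
          refine (Finset.abs_sum_le_sum_abs _ _).trans (Finset.sum_le_sum fun i _ => ?_)
          exact Finset.abs_sum_le_sum_abs _ _
      _ ≤ ∑ i ∈ C, ∑ k ∈ C, 5 * ((|a i| * τ i) * (|a k| * τ k)) := by
          refine Finset.sum_le_sum fun i _ => Finset.sum_le_sum fun k _ => ?_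
          rw [abs_mul, abs_mul]
          have := hE i k
          nlinarith [mul_nonneg (abs_nonneg (a i)) (abs_nonneg (a k))]
      _ = 5 * (∑ i ∈ C, |a i| * τ i) ^ 2 := by
          rw [sq, Finset.sum_mul_sum, Finset.mul_sum]
          refine Finset.sum_congr rfl fun i _ => ?_
          rw [Finset.mul_sum]
  rw [hdec]
  have h5 := (abs_le.mp herr).1
  have hS0 : 0 ≤ ∑ i ∈ C, τ i ^ 2 / lam i :=
    Finset.sum_nonneg fun i hi => div_nonneg (sq_nonneg _) (hlam i hi).le
  nlinarith [mul_le_mul_of_nonneg_left hsmall hW0]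

/-- Solving `A a = x` on `C`, with the bounds of the blueprint. -/
theorem exists_solve (C : Finset (Fin d)) (M : Fin d → Fin d → ℝ) (lam : Fin d → ℝ)
    (hlam : ∀ i ∈ C, 0 < lam i)
    (hq : ∀ a : Fin d → ℝ, (1 / 2) * ∑ i ∈ C, lam i * a i ^ 2 ≤ qf C M a)
    (x : Fin d → ℝ) :
    ∃ a : Fin d → ℝ, (∀ i, i ∉ C → a i = 0) ∧ (∀ i ∈ C, ∑ k ∈ C, M i k * a k = x i) ∧
      ∑ k ∈ C, lam k * a k ^ 2 ≤ 4 * ∑ k ∈ C, x k ^ 2 / lam k ∧
      qf C M a ≤ 2 * ∑ k ∈ C, x k ^ 2 / lam k := by
  classical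
  -- the linear map on `C → ℝ`
  let f : (C → ℝ) →ₗ[ℝ] (C → ℝ) :=
    { toFun := fun b i => ∑ k : C, M i k * b k
      map_add' := by
        intro b c; funext i; simp [mul_add, Finset.sum_add_distrib]
      map_smul' := by
        intro t b; funext i; simp [Finset.mul_sum, mul_left_comm] }
  have hinj : Function.Injective f := by
    rw [← LinearMap.ker_eq_bot, LinearMap.ker_eq_bot']
    intro b hb
    -- extend by zero
    let a : Fin d → ℝ := fun i => if h : i ∈ C then b ⟨i, h⟩ else 0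
    have ha : ∀ i : C, a i = b i := fun i => by simp [a]
    have hq0 : qf C M a = 0 := by
      unfold qf
      rw [← Finset.sum_coe_sort C]
      refine Finset.sum_eq_zero fun i _ => ?_
      rw [← Finset.sum_coe_sort C]
      have h1 : ∑ k : C, a i * M i k * a k = a i * ∑ k : C, M i k * b k := by
        rw [Finset.mul_sum]
        refine Finset.sum_congr rfl fun k _ => ?_
        rw [ha k]; ring
      rw [h1]
      have h2 : ∑ k : C, M i k * b k = 0 := congrFun hb i
      rw [h2, mul_zero]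
    have hq1 := hq a
    rw [hq0] at hq1
    have hs0 : ∑ i ∈ C, lam i * a i ^ 2 = 0 := by
      have h0 : 0 ≤ ∑ i ∈ C, lam i * a i ^ 2 :=
        Finset.sum_nonneg fun i hi => mul_nonneg (hlam i hi).le (sq_nonneg _)
      linarith
    have hz := (Finset.sum_eq_zero_iff_of_nonneg
      (fun i hi => mul_nonneg (hlam i hi).le (sq_nonneg _))).mp hs0
    funext i
    have hi := hz i i.2
    have := hlam i i.2
    have h3 : a i ^ 2 = 0 := by
      rcases mul_eq_zero.mp hi with h | h
      · linarith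
      · exact h
    have h4 : a i = 0 := by simpa using h3
    rw [← ha i, h4]; rfl
  have hsurj : Function.Surjective f := LinearMap.injective_iff_surjective.mp hinj
  obtain ⟨b, hb⟩ := hsurj (fun i => x i)
  let a : Fin d → ℝ := fun i => if h : i ∈ C then b ⟨i, h⟩ else 0
  have ha : ∀ i : C, a i = b i := fun i => by simp [a]
  have hoff : ∀ i, i ∉ C → a i = 0 := fun i hi => by simp [a, hi]
  have hsol : ∀ i ∈ C, ∑ k ∈ C, M i k * a k = x i := by
    intro i hi
    rw [← Finset.sum_coe_sort C]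
    have h1 : ∑ k : C, M i k * b k = x i := congrFun hb ⟨i, hi⟩
    rw [← h1]
    exact Finset.sum_congr rfl fun k _ => by rw [ha k]
  -- value of the quadratic form
  have hval : qf C M a = ∑ i ∈ C, a i * x i := by
    unfold qf
    refine Finset.sum_congr rfl fun i hi => ?_
    rw [← hsol i hi, Finset.mul_sum]
    exact Finset.sum_congr rfl fun k _ => by ring
  set W := ∑ k ∈ C, lam k * a k ^ 2 with hW
  set X := ∑ k ∈ C, x k ^ 2 / lam k with hX
  have hW0 : 0 ≤ W := Finset.sum_nonneg fun i hi => mul_nonneg (hlam i hi).le (sq_nonneg _)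
  have hX0 : 0 ≤ X := Finset.sum_nonneg fun i hi => div_nonneg (sq_nonneg _) (hlam i hi).le
  -- Cauchy-Schwarz
  have hcs : (∑ i ∈ C, a i * x i) ^ 2 ≤ W * X := by
    have h4 := Finset.sum_mul_sq_le_sq_mul_sq C (fun i => Real.sqrt (lam i) * a i)
      (fun i => x i / Real.sqrt (lam i))
    have h1 : ∀ i ∈ C, (Real.sqrt (lam i) * a i) ^ 2 = lam i * a i ^ 2 := by
      intro i hi
      rw [mul_pow, Real.sq_sqrt (hlam i hi).le]
    have h2 : ∀ i ∈ C, (x i / Real.sqrt (lam i)) ^ 2 = x i ^ 2 / lam i := by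
      intro i hi
      rw [div_pow, Real.sq_sqrt (hlam i hi).le]
    have h3 : ∀ i ∈ C, Real.sqrt (lam i) * a i * (x i / Real.sqrt (lam i)) = a i * x i := by
      intro i hi
      have hs : 0 < Real.sqrt (lam i) := Real.sqrt_pos.mpr (hlam i hi)
      field_simp
    rw [Finset.sum_congr rfl h1, Finset.sum_congr rfl h2, Finset.sum_congr rfl h3] at h4
    exact h4
  have hq1 := hq a
  rw [hval] at hq1
  have hQ0 : 0 ≤ ∑ i ∈ C, a i * x i := by linarith
  -- W/2 ≤ Q, Q² ≤ W X  ⇒ W ≤ 4 X, Q ≤ 2 X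
  have hW4 : W ≤ 4 * X := by
    by_contra hcon
    push_neg at hcon
    have h5 : (W / 2) ^ 2 ≤ (∑ i ∈ C, a i * x i) ^ 2 := by
      apply pow_le_pow_left₀ (by linarith) (by linarith)
    nlinarith
  refine ⟨a, hoff, hsol, hW4, ?_⟩
  rw [hval]
  have h6 : (∑ i ∈ C, a i * x i) ^ 2 ≤ (2 * X) ^ 2 := by
    nlinarith
  exact abs_le_of_sq_le_sq' h6 (by linarith) |>.2

end Vale.Agent.P262T
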