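import Vale.Agent.P262T.Defs

/-! Interfaces of the P262 node step.  `Lyap` collects what the node step needs from the Lyapunov
functions `W`, `Om` and the bound `b`; `node_step` is proved in `NodeStep.lean`. -/

open Finset

namespace Vale.Agent.P262T

variable {d : ℕ}

/-- `ρ(l) = ∑_{k ∈ C_l} λ_k(l)^{-1/2}`. -/
noncomputable def rho (L : Fin d → ℝ) (l : ℕ) : ℝ :=
  ∑ k ∈ Cor L l, (Real.sqrt (lam L k l))⁻¹

/-- `β` at age `a`: `2 γ (3/5)^a / E₀`. -/
noncomputable def betaAge (d : ℕ) (a : ℕ) : ℝ := 2 * gam d * (3 / 5 : ℝ) ^ a / E0 d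

/-- Per-level cost of a frozen coordinate at age `a`: noise + `2 T_E`, with `E` empty when `β' ≥ 1`. -/
noncomputable def costW (d : ℕ) (a : ℕ) : ℝ :=
  sigma d * min 1 (Real.sqrt (2 * d * thetaOf d (betaAge d a))) +
    (if 1 ≤ betaAge d (a + 1) then 0
     else 2 * (2 * gam d * (3 / 5 : ℝ) ^ (a + 1) / Real.sqrt (thetaOf d (betaAge d (a + 1)))))

/-- What the node step needs from `W`, `Om`, `b` (helper27: `Lyap.lean` constructs it). -/
structure Lyap (L : Fin d → ℝ) (W Om : ℕ → ℝ) (b : ℝ) : Prop where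
  W_nonneg : ∀ a, 0 ≤ W a
  Om_nonneg : ∀ l, 0 ≤ Om l
  W_step : ∀ a, costW d a ≤ W a - W (a + 1)
  Om_step : ∀ l, 17 * sigma d * rho L l ≤ Om l - Om (l + 1)
  b_fresh : ∀ l, sigma d ≤ b - W 0 - Om l
  b_small : b ≤ Real.sqrt (gam d)

end Vale.Agent.P262T
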