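import Mathlib

/-!
# Spectral coordinates of a family in Euclidean space

For a finite family `v` in `ℝ^d` there is an orthonormal basis diagonalising `∑ v vᵀ`.
-/

open Finset

namespace Vale.Agent.P262T

variable {d N : ℕ}

/-- An orthonormal basis diagonalising the second moment matrix. -/
theorem spectral_coords (v : Fin N → EuclideanSpace ℝ (Fin d)) :
    ∃ (u : OrthonormalBasis (Fin d) ℝ (EuclideanSpace ℝ (Fin d))) (L : Fin d → ℝ),
      ∀ i j, ∑ n, inner ℝ (v n) (u i) * inner ℝ (v n) (u j) = if i = j then L i else 0 := by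
  let E := EuclideanSpace ℝ (Fin d)
  let T : E →ₗ[ℝ] E :=
    { toFun := fun x => ∑ n, inner ℝ (v n) x • v n
      map_add' := by
        intro x y
        simp only [inner_add_right, add_smul, Finset.sum_add_distrib]
      map_smul' := by
        intro c x
        simp only [inner_smul_right, RingHom.id_apply, Finset.smul_sum, smul_smul] }
  have hT : T.IsSymmetric := by
    intro x y
    show inner ℝ (∑ n, inner ℝ (v n) x • v n) y = inner ℝ x (∑ n, inner ℝ (v n) y • v n)
    rw [sum_inner, inner_sum]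
    refine Finset.sum_congr rfl fun n _ => ?_
    rw [inner_smul_left, inner_smul_right, real_inner_comm x (v n)]
    simp
    ring
  have hd : Module.finrank ℝ E = d := by simp [E]
  refine ⟨hT.eigenvectorBasis hd, hT.eigenvalues hd, fun i j => ?_⟩
  have h1 : T (hT.eigenvectorBasis hd i) = hT.eigenvalues hd i • hT.eigenvectorBasis hd i := by
    have := hT.apply_eigenvectorBasis hd i
    simp [this]
  have h2 : ∑ n, inner ℝ (v n) (hT.eigenvectorBasis hd i) * inner ℝ (v n) (hT.eigenvectorBasis hd j)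
      = inner ℝ (T (hT.eigenvectorBasis hd i)) (hT.eigenvectorBasis hd j) := by
    show _ = inner ℝ (∑ n, inner ℝ (v n) (hT.eigenvectorBasis hd i) • v n)
      (hT.eigenvectorBasis hd j)
    rw [sum_inner]
    refine Finset.sum_congr rfl fun n _ => ?_
    rw [inner_smul_left]
    simp
  rw [h2, h1, inner_smul_left]
  by_cases h : i = j
  · subst h
    rw [real_inner_self_eq_norm_sq, (hT.eigenvectorBasis hd).orthonormal.1 i]
    simp
  · rw [(hT.eigenvectorBasis hd).orthonormal.2 h]
    simp [h]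

/-- Transfer of the Steinitz statement to coordinates in an orthonormal basis diagonalising
the second moment matrix. -/
theorem steinitz_of_coord (d : ℕ) (C : ℝ) (hC : 0 ≤ C)
    (H : ∀ (N : ℕ) (α : Fin N → Fin d → ℝ) (L : Fin d → ℝ),
      (∀ n, ∑ i, α n i ^ 2 ≤ 1) → (∀ i, ∑ n, α n i = 0) →
      (∀ i j, ∑ n, α n i * α n j = if i = j then L i else 0) →
      ∃ π : Equiv.Perm (Fin N), ∀ k : ℕ, k ≤ N →
        ∑ i, (∑ n : Fin N, (if n.val < k then α (π n) i else 0)) ^ 2 ≤ C ^ 2)
    (N : ℕ) (v : Fin N → EuclideanSpace ℝ (Fin d)) (hv : ∀ i, ‖v i‖ ≤ 1) (h0 : ∑ i, v i = 0) :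
    ∃ π : Equiv.Perm (Fin N), ∀ k : ℕ, k ≤ N →
      ‖∑ i : Fin N, (if i.val < k then v (π i) else 0)‖ ≤ C := by
  obtain ⟨u, L, hL⟩ := spectral_coords v
  obtain ⟨π, hπ⟩ := H N (fun n i => inner ℝ (v n) (u i)) L
    (fun n => by
      have := u.sum_sq_norm_inner_right (v n)
      have h2 : ∑ i, (inner ℝ (v n) (u i) : ℝ) ^ 2 = ‖v n‖ ^ 2 := by
        rw [← this]
        refine Finset.sum_congr rfl fun i _ => ?_
        rw [Real.norm_eq_abs, sq_abs, real_inner_comm]
      rw [h2]
      have := hv n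
      nlinarith [norm_nonneg (v n)])
    (fun i => by
      rw [← sum_inner, h0, inner_zero_left])
    hL
  refine ⟨π, fun k hk => ?_⟩
  have h1 := hπ k hk
  set W : EuclideanSpace ℝ (Fin d) := ∑ i : Fin N, (if i.val < k then v (π i) else 0) with hW
  have h2 : ∀ i, inner ℝ W (u i) = ∑ n : Fin N, (if n.val < k then inner ℝ (v (π n)) (u i) else 0) := by
    intro i
    rw [hW, sum_inner]
    refine Finset.sum_congr rfl fun n _ => ?_
    split_ifs
    · rfl
    · simp
  have h3 : ‖W‖ ^ 2 = ∑ i, (inner ℝ W (u i) : ℝ) ^ 2 := by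
    rw [← u.sum_sq_norm_inner_right W]
    refine Finset.sum_congr rfl fun i _ => ?_
    rw [Real.norm_eq_abs, sq_abs, real_inner_comm]
  have h4 : ‖W‖ ^ 2 ≤ C ^ 2 := by
    rw [h3]
    simp only [h2]
    exact h1
  exact abs_le_of_sq_le_sq' h4 hC |>.2

end Vale.Agent.P262T
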