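import Mathlib

/-!
# The recursion tree: from a node step to an ordering

An abstract recursion: if every large node splits into two smaller nodes, and every subset of a
small node gives an admissible partial sum, then each node has an ordering all of whose prefixes
are admissible. Then the passage from a list to a permutation of `Fin N`, and the bound in the
leaves.
-/

open Finset

namespace Vale.Agent.P262T

variable {ι : Type} [DecidableEq ι]

/-- Abstract tree recursion. -/
theorem tree_order {V : Type} [AddCommMonoid V] (α : ι → V) (Ok : V → Prop) (thr : ℕ)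
    (Node : ℕ → Finset ι → V → V → Prop)
    (step : ∀ l B p q, Node l B p q → thr < B.card → ∃ S, S ⊆ B ∧ S.card < B.card ∧
      (B \ S).card < B.card ∧ Node (l + 1) S p (p + ∑ v ∈ S, α v) ∧
      Node (l + 1) (B \ S) (p + ∑ v ∈ S, α v) q)
    (leaf : ∀ l B p q, Node l B p q → B.card ≤ thr → ∀ T, T ⊆ B → Ok (p + ∑ v ∈ T, α v)) :
    ∀ l B p q, Node l B p q → ∃ L : List ι, L.Nodup ∧ L.toFinset = B ∧
      ∀ k, Ok (p + ((L.take k).map α).sum) := by
  intro l B
  induction h : B.card using Nat.strong_induction_on generalizing l B with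
  | _ n ih =>
    intro p q hN
    by_cases hb : B.card ≤ thr
    · refine ⟨B.toList, B.nodup_toList, B.toList_toFinset, fun k => ?_⟩
      have hnd : (B.toList.take k).Nodup := B.nodup_toList.sublist (List.take_sublist _ _)
      have e : ((B.toList.take k).map α).sum = ∑ v ∈ (B.toList.take k).toFinset, α v := by
        rw [List.sum_toFinset _ hnd]
      rw [e]
      refine leaf l B p q hN hb _ ?_
      intro v hv
      have := List.mem_of_mem_take (List.mem_toFinset.mp hv)
      exact Finset.mem_toList.mp this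
    · obtain ⟨S, hS, hc1, hc2, hN1, hN2⟩ := step l B p q hN (not_le.mp hb)
      obtain ⟨L1, hL1, hL1', hok1⟩ := ih S.card (by omega) (l + 1) S rfl p _ hN1
      obtain ⟨L2, hL2, hL2', hok2⟩ := ih (B \ S).card (by omega) (l + 1) (B \ S) rfl _ q hN2
      refine ⟨L1 ++ L2, ?_, ?_, fun k => ?_⟩
      · rw [List.nodup_append']
        refine ⟨hL1, hL2, ?_⟩
        rw [List.disjoint_iff_ne]
        intro a ha b hb' hab
        subst hab
        have h3 : a ∈ S := by rw [← hL1']; exact List.mem_toFinset.2 ha
        have h4 : a ∈ B \ S := by rw [← hL2']; exact List.mem_toFinset.2 hb'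
        exact (mem_sdiff.1 h4).2 h3
      · rw [List.toFinset_append, hL1', hL2']
        exact union_sdiff_of_subset hS
      · rw [List.take_append, List.map_append, List.sum_append]
        by_cases hk : k ≤ L1.length
        · have : k - L1.length = 0 := by omega
          rw [this]
          simpa using hok1 k
        · have e1 : L1.take k = L1 := List.take_of_length_le (by omega)
          have e2 : (L1.map α).sum = ∑ v ∈ S, α v := by
            rw [← hL1', List.sum_toFinset _ hL1]
          rw [e1, e2, ← add_assoc]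
          exact hok2 _

omit [DecidableEq ι] in
/-- Partial sums of a list as a sum over its positions. -/
lemma sum_take_eq {E : Type} [AddCommMonoid E] (v : ι → E) (l : List ι) (k : ℕ) :
    ((l.take k).map v).sum
      = ∑ i : Fin l.length, if i.val < k then v (l.get i) else 0 := by
  induction l generalizing k with
  | nil => simp
  | cons a t ih =>
    cases k with
    | zero => simp
    | succ k =>
      simp only [List.take_succ_cons, List.map_cons, List.sum_cons, List.length_cons]
      rw [Fin.sum_univ_succ, ih k]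
      simp

/-- From a list enumerating `Fin N` to a permutation. -/
theorem perm_of_list {N : ℕ} (L : List (Fin N)) (h1 : L.Nodup) (h2 : L.toFinset = univ) :
    ∃ π : Equiv.Perm (Fin N), ∀ {E : Type} [AddCommMonoid E] (v : Fin N → E) (k : ℕ),
      ∑ i : Fin N, (if i.val < k then v (π i) else 0) = ((L.take k).map v).sum := by
  have hmem : ∀ x, x ∈ L := fun x => by
    have : x ∈ L.toFinset := by rw [h2]; exact mem_univ x
    exact List.mem_toFinset.1 this
  have hlen : L.length = N := by
    have h4 := List.toFinset_card_of_nodup h1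
    rw [h2] at h4
    simpa using h4.symm
  let e : Fin L.length ≃ Fin N := h1.getEquivOfForallMemList L hmem
  let c : Fin N ≃ Fin L.length := finCongr hlen.symm
  refine ⟨c.trans e, ?_⟩
  intro E _ v k
  rw [sum_take_eq]
  rw [← Equiv.sum_comp c.symm]
  apply sum_congr rfl
  intro i _
  have h6 : (c.symm i).val = i.val := by simp [c]
  have h7 : (c.trans e) (c.symm i) = L.get i := by
    simp [e, List.Nodup.getEquivOfForallMemList]
  rw [h6, h7]

omit [DecidableEq ι] in
/-- The bound in a leaf: a point with all coordinates at most `b`, plus at most `thr` columns of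
norm at most one, has Euclidean norm at most `√d b + thr`. -/
lemma leaf_bound {d : ℕ} (α : ι → Fin d → ℝ) (b : ℝ) (hb : 0 ≤ b) (thr : ℕ) (p : Fin d → ℝ)
    (hp : ∀ i, |p i| ≤ b) (T : Finset ι) (hT : T.card ≤ thr)
    (hα : ∀ v ∈ T, ∑ i, α v i ^ 2 ≤ 1) :
    ∑ i, (p i + ∑ v ∈ T, α v i) ^ 2 ≤ (√d * b + thr) ^ 2 := by
  let x : EuclideanSpace ℝ (Fin d) := WithLp.toLp 2 p
  let y : ι → EuclideanSpace ℝ (Fin d) := fun v => WithLp.toLp 2 (α v)
  have hx : ‖x‖ ≤ √d * b := by
    have h : ‖x‖ ^ 2 ≤ (√d * b) ^ 2 := by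
      rw [EuclideanSpace.real_norm_sq_eq, mul_pow, Real.sq_sqrt (by positivity)]
      calc ∑ i, x i ^ 2 ≤ ∑ _i : Fin d, b ^ 2 := by
            refine Finset.sum_le_sum fun i _ => ?_
            have := hp i
            exact sq_le_sq' (by linarith [abs_le.mp this]) (abs_le.mp this).2
        _ = d * b ^ 2 := by simp
    exact abs_le_of_sq_le_sq' h (by positivity) |>.2
  have hy : ∀ v ∈ T, ‖y v‖ ≤ 1 := by
    intro v hv
    have h : ‖y v‖ ^ 2 ≤ 1 := by
      rw [EuclideanSpace.real_norm_sq_eq]
      exact hα v hv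
    exact (abs_le_of_sq_le_sq' (by simpa using h) (by norm_num)).2
  have hs : ‖∑ v ∈ T, y v‖ ≤ thr := by
    calc ‖∑ v ∈ T, y v‖ ≤ ∑ v ∈ T, ‖y v‖ := norm_sum_le _ _
      _ ≤ ∑ _v ∈ T, (1 : ℝ) := Finset.sum_le_sum hy
      _ = T.card := by simp
      _ ≤ thr := by exact_mod_cast hT
  have hw : ‖x + ∑ v ∈ T, y v‖ ≤ √d * b + thr := (norm_add_le _ _).trans (add_le_add hx hs)
  have h2 : ‖x + ∑ v ∈ T, y v‖ ^ 2 = ∑ i, (p i + ∑ v ∈ T, α v i) ^ 2 := by
    rw [EuclideanSpace.real_norm_sq_eq]
    refine Finset.sum_congr rfl fun i _ => ?_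
    simp [x, y, Finset.sum_apply]
  rw [← h2]
  exact pow_le_pow_left₀ (norm_nonneg _) hw 2

/-- Assembly: from the node step, the root invariant and the endpoint bound to the coordinate form
of the Steinitz statement needed by `steinitz_of_coord`. -/
theorem coord_of_node {d N : ℕ} (α : Fin N → Fin d → ℝ) (hα : ∀ n, ∑ i, α n i ^ 2 ≤ 1)
    (b : ℝ) (hb : 0 ≤ b) (thr : ℕ)
    (Node : ℕ → Finset (Fin N) → (Fin d → ℝ) → (Fin d → ℝ) → Prop)
    (step : ∀ l B p q, Node l B p q → thr < B.card → ∃ S, S ⊆ B ∧ S.card < B.card ∧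
      (B \ S).card < B.card ∧ Node (l + 1) S p (p + ∑ v ∈ S, α v) ∧
      Node (l + 1) (B \ S) (p + ∑ v ∈ S, α v) q)
    (ends : ∀ l B p q, Node l B p q → ∀ i, |p i| ≤ b)
    (root : Node 0 univ 0 0) :
    ∃ π : Equiv.Perm (Fin N), ∀ k : ℕ,
      ∑ i, (∑ n : Fin N, (if n.val < k then α (π n) i else 0)) ^ 2 ≤ (√d * b + thr) ^ 2 := by
  obtain ⟨L, h1, h2, h3⟩ := tree_order α (fun W : Fin d → ℝ => ∑ i, W i ^ 2 ≤ (√d * b + thr) ^ 2)
    thr Node step (by
      intro l B p q hN hB T hT
      have := leaf_bound α b hb thr p (ends l B p q hN) T ((card_le_card hT).trans hB)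
        (fun v _ => hα v)
      simpa [Finset.sum_apply] using this) 0 univ 0 0 root
  obtain ⟨π, hπ⟩ := perm_of_list L h1 h2
  refine ⟨π, fun k => ?_⟩
  have h4 := h3 k
  rw [zero_add, ← hπ α k] at h4
  refine le_trans (le_of_eq ?_) h4
  refine Finset.sum_congr rfl fun i _ => ?_
  congr 1
  rw [Finset.sum_apply]
  refine Finset.sum_congr rfl fun n _ => ?_
  split_ifs <;> rfl

end Vale.Agent.P262T
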