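import Vale.Agent.P262T.Skeleton
import Vale.Agent.P262T.Tree
import Vale.Agent.P262T.Spectral

/-!
# Top of the P262 blueprint: root invariant, endpoint bound, assembly from `node_step` and `Lyap`.
-/

open Finset

namespace Vale.Agent.P262T

variable {d : ℕ}

lemma sigma_pos (hd : 0 < d) : 0 < sigma d := by
  unfold sigma
  have h1 : (1 : ℝ) ≤ (d : ℝ) := by exact_mod_cast hd
  have h2 : (1 : ℝ) < 2 * ((d : ℝ) + 1) ^ 2 := by nlinarith
  have h3 := Real.log_pos h2
  positivity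

/-- `σ ≥ 8`. -/
lemma sigma_ge (hd : 0 < d) : 8 ≤ sigma d := by
  unfold sigma
  have h1 : (1 : ℝ) ≤ (d : ℝ) := by exact_mod_cast hd
  have h2 : (8 : ℝ) ≤ 2 * ((d : ℝ) + 1) ^ 2 := by nlinarith
  have h3 : Real.log 8 ≤ Real.log (2 * ((d : ℝ) + 1) ^ 2) := Real.log_le_log (by norm_num) h2
  have h4 : Real.log 8 = 3 * Real.log 2 := by
    rw [show (8 : ℝ) = 2 ^ 3 by norm_num, Real.log_pow]
    norm_num
  have h5 := Real.log_two_gt_d9
  have h6 : (4 / 3 : ℝ) ≤ Real.sqrt (Real.log (2 * ((d : ℝ) + 1) ^ 2)) := by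
    apply Real.le_sqrt_of_sq_le
    rw [h4] at h3
    norm_num at h5 ⊢
    linarith
  linarith

lemma one_le_bet_zero (hd : 0 < d) : 1 ≤ 2 * gam d * (3 / 5 : ℝ) ^ 0 / E0 d := by
  have hs := sigma_ge hd
  have h1 : (1 : ℝ) ≤ (d : ℝ) := by exact_mod_cast hd
  unfold gam E0
  rw [pow_zero, mul_one, le_div_iff₀ (by linarith)]
  have h2 : (1 : ℝ) ≤ (d : ℝ) ^ 2 := by nlinarith
  have h3 : sigma d * 12 ≤ sigma d ^ 2 * 10 ^ 8 := by nlinarith
  nlinarith [sq_nonneg (sigma d)]

variable {ι : Type} [DecidableEq ι]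

/-- The root node. -/
theorem root_nodeOK (hd : 0 < d) {N : ℕ} (α : Fin N → Fin d → ℝ) (L W Om : _) (b : ℝ)
    (hLy : Lyap L W Om b)
    (hα : ∀ n, ∑ i, α n i ^ 2 ≤ 1) (h0 : ∀ i, ∑ n, α n i = 0)
    (hM : ∀ i j, ∑ n, α n i * α n j = if i = j then L i else 0) :
    NodeOK L α W Om b 0 univ (fun _ => 0) (fun _ => 0) := by
  have hage : ∀ i, age L i 0 = 0 := fun i => rfl
  have hGam : ∀ i, Gam L i 0 = 2 * gam d := by
    intro i
    simp [Gam, hage]
  have hth : ∀ i, th L i 0 = 1 := by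
    intro i
    unfold th thetaOf bet
    rw [if_pos]
    have := one_le_bet_zero hd
    rw [hGam i]
    simpa using this
  have habs : ∀ (n : Fin N) i, α n i ^ 2 ≤ 1 := by
    intro n i
    have h1 : α n i ^ 2 ≤ ∑ i, α n i ^ 2 :=
      Finset.single_le_sum (f := fun i => α n i ^ 2) (fun _ _ => sq_nonneg _) (Finset.mem_univ i)
    exact h1.trans (hα n)
  have hbig : ∀ i, bigSet L α i 0 (univ : Finset (Fin N)) = ∅ := by
    intro i
    unfold bigSet
    rw [Finset.filter_eq_empty_iff]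
    intro n _
    rw [hth i]
    exact not_not.mpr (habs n i)
  refine ⟨?_, ?_, ?_, ?_, ?_⟩
  · intro i
    simp [h0 i]
  · intro i j
    unfold MM
    rw [hM i j]
    have : (if i = j then L i else 0) - (if i = j then lam L i 0 else 0) = 0 := by
      by_cases h : i = j <;> simp [h, lam]
    rw [this, abs_zero]
    unfold tau
    positivity
  · intro i hi
    have h1 : ∑ v ∈ smallSet L α i 0 (univ : Finset (Fin N)), α v i ^ 2 ≤ ∑ v, α v i ^ 2 :=
      Finset.sum_le_sum_of_subset_of_nonneg (Finset.subset_univ _) (fun _ _ _ => sq_nonneg _)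
    refine h1.trans ?_
    have h2 : ∑ v, α v i ^ 2 = L i := by
      have := hM i i
      simp only [if_true] at this
      rw [← this]
      refine Finset.sum_congr rfl fun n _ => ?_
      ring
    rw [h2, hGam i]
    have h3 : ¬ gam d ≤ lam L i 0 := by
      intro hc
      apply hi
      unfold Cor
      simp [hc]
    have h4 : lam L i 0 = L i := by simp [lam]
    rw [h4] at h3
    push Not at h3
    have h5 : 0 ≤ gam d := by unfold gam; positivity
    linarith
  · intro i _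
    have := (sigma_pos hd).le
    simpa using this
  · intro i _
    have h1 := hLy.b_fresh 0
    have h2 := sigma_pos hd
    have hG : GG L α i 0 (univ : Finset (Fin N)) = 0 := by
      unfold GG
      rw [hbig i]
      simp
    have hT : TT L α i 0 (univ : Finset (Fin N)) = 0 := by
      unfold TT
      rw [hbig i]
      simp
    rw [hG, hT, hage i]
    simp
    linarith

omit [DecidableEq ι] in
/-- Endpoint bound of a node. -/
theorem ends_of_nodeOK (hd : 0 < d) {α : ι → Fin d → ℝ} {L W Om} {b : ℝ} (hLy : Lyap L W Om b)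
    {l : ℕ} {B : Finset ι} {p q : Fin d → ℝ} (hN : NodeOK L α W Om b l B p q) (i : Fin d) :
    |p i| ≤ b := by
  have h0 := hLy.b_fresh l
  have h1 := hLy.W_nonneg 0
  have h2 := hLy.Om_nonneg l
  have h3 := sigma_pos hd
  by_cases hi : i ∈ Cor L l
  · have := (hN.hPc i hi).1
    linarith
  · have h4 := hN.hPf i hi
    have h5 : |p i| ≤ max |p i| |q i - GG L α i l B| := le_max_left _ _
    have h6 : 0 ≤ TT L α i l B := by
      unfold TT
      exact Finset.sum_nonneg fun _ _ => abs_nonneg _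
    have h7 := hLy.W_nonneg (age L i l)
    have h8 := hLy.Om_nonneg l
    linarith

/-- The statement of the node step (proved in `NodeStep.lean`). -/
def NodeStepStmt (d : ℕ) : Prop :=
  ∀ (ι : Type) [DecidableEq ι] (α : ι → Fin d → ℝ) (L : Fin d → ℝ) (W Om : ℕ → ℝ) (b : ℝ),
    (∀ v, ∑ i, α v i ^ 2 ≤ 1) → (∀ i, 0 ≤ L i) → Lyap L W Om b →
    ∀ (l : ℕ) (B : Finset ι) (p q : Fin d → ℝ), NodeOK L α W Om b l B p q →
      3 * sigma d < (B.card : ℝ) →
      ∃ S, S ⊆ B ∧ NodeOK L α W Om b (l + 1) S p (fun i => p i + ∑ v ∈ S, α v i) ∧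
        NodeOK L α W Om b (l + 1) (B \ S) (fun i => p i + ∑ v ∈ S, α v i) q ∧
        S.card < B.card ∧ (B \ S).card < B.card

/-- The coordinate form, from the node step and the Lyapunov data. -/
theorem coord_main (hd : 0 < d) (hstep : NodeStepStmt d) (b : ℝ) (hb : 0 ≤ b)
    (hLy : ∀ L : Fin d → ℝ, (∀ i, 0 ≤ L i) → ∃ W Om, Lyap L W Om b)
    (N : ℕ) (α : Fin N → Fin d → ℝ) (L : Fin d → ℝ)
    (hα : ∀ n, ∑ i, α n i ^ 2 ≤ 1) (h0 : ∀ i, ∑ n, α n i = 0)
    (hM : ∀ i j, ∑ n, α n i * α n j = if i = j then L i else 0) :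
    ∃ π : Equiv.Perm (Fin N), ∀ k : ℕ, k ≤ N →
      ∑ i, (∑ n : Fin N, (if n.val < k then α (π n) i else 0)) ^ 2
        ≤ (√d * b + ⌊3 * sigma d⌋₊) ^ 2 := by
  have hL0 : ∀ i, 0 ≤ L i := by
    intro i
    have := hM i i
    simp only [if_true] at this
    rw [← this]
    exact Finset.sum_nonneg fun n _ => mul_self_nonneg _
  obtain ⟨W, Om, hL⟩ := hLy L hL0
  obtain ⟨π, hπ⟩ := coord_of_node α hα b hb ⌊3 * sigma d⌋₊ (NodeOK L α W Om b)
    (by
      intro l B p q hN hB
      have hB' : 3 * sigma d < (B.card : ℝ) := by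
        have := (Nat.floor_lt (by have := sigma_pos hd; positivity)).mp hB
        exact this
      obtain ⟨S, hS, h1, h2, h3, h4⟩ := hstep (Fin N) α L W Om b hα hL0 hL l B p q hN hB'
      refine ⟨S, hS, h3, h4, ?_, ?_⟩
      · have e : (p + ∑ v ∈ S, α v) = fun i => p i + ∑ v ∈ S, α v i := by
          funext i
          simp [Finset.sum_apply]
        rw [e]
        exact h1
      · have e : (p + ∑ v ∈ S, α v) = fun i => p i + ∑ v ∈ S, α v i := by
          funext i
          simp [Finset.sum_apply]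
        rw [e]
        exact h2)
    (fun l B p q hN i => ends_of_nodeOK hd hL hN i)
    (root_nodeOK hd α L W Om b hL hα h0 hM)
  exact ⟨π, fun k _ => hπ k⟩

/-- The Steinitz bound from the node step and the Lyapunov data. -/
theorem steinitz_main (hd : 0 < d) (hstep : NodeStepStmt d) (b : ℝ) (hb : 0 ≤ b)
    (hLy : ∀ L : Fin d → ℝ, (∀ i, 0 ≤ L i) → ∃ W Om, Lyap L W Om b)
    (N : ℕ) (v : Fin N → EuclideanSpace ℝ (Fin d)) (hv : ∀ i, ‖v i‖ ≤ 1) (h0 : ∑ i, v i = 0) :
    ∃ π : Equiv.Perm (Fin N), ∀ k : ℕ, k ≤ N →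
      ‖∑ i : Fin N, (if i.val < k then v (π i) else 0)‖ ≤ √d * b + ⌊3 * sigma d⌋₊ := by
  refine steinitz_of_coord d _ (by positivity) (fun N α L h1 h2 h3 => ?_) N v hv h0
  exact coord_main hd hstep b hb hLy N α L h1 h2 h3

end Vale.Agent.P262T
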